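import Vale.Agent.P144D.Tame
import Vale.Agent.P144D.DefsB

/-!
Tame domains: discretisation and examples.
-/

namespace Vale.Agent.P144Z

open Finset Matrix Filter Topology

namespace B6a

/-- A lattice point, rescaled. -/
def pt (a : ℝ) (x : ℤ × ℤ) : ℂ := ⟨a * x.1, a * x.2⟩

lemma pt_add (a : ℝ) (x y : ℤ × ℤ) : pt a (x + y) = pt a x + pt a y := by
  apply Complex.ext <;> simp [pt, mul_add]

lemma norm_pt {a : ℝ} (ha : 0 < a) (v : ℤ × ℤ) : ‖pt a v‖ = a * len v := by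
  rw [Complex.norm_eq_sqrt_sq_add_sq, len, ← Real.sqrt_sq ha.le, ← Real.sqrt_mul (sq_nonneg a),
    Real.sqrt_sq ha.le]
  congr 1
  simp only [pt]
  ring

lemma zd_cast (v : ℤ × ℤ) : (zd v 0 : ℝ) = max |(v.1 : ℝ)| |(v.2 : ℝ)| := by
  simp [zd, Nat.cast_natAbs]

lemma zd_le {a : ℝ} (ha : 0 < a) (v : ℤ × ℤ) : a * zd v 0 ≤ ‖pt a v‖ := by
  have h1 := Complex.abs_re_le_norm (pt a v)
  have h2 := Complex.abs_im_le_norm (pt a v)
  simp only [pt, abs_mul, abs_of_pos ha] at h1 h2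
  rw [zd_cast, mul_max_of_nonneg _ _ ha.le]
  exact max_le h1 h2

lemma le_zd {a : ℝ} (ha : 0 < a) (v : ℤ × ℤ) : ‖pt a v‖ ≤ 2 * (a * zd v 0) := by
  refine (Complex.norm_le_abs_re_add_abs_im (pt a v)).trans ?_
  simp only [pt, abs_mul, abs_of_pos ha]
  rw [zd_cast]
  nlinarith [le_max_left |(v.1 : ℝ)| |(v.2 : ℝ)|, le_max_right |(v.1 : ℝ)| |(v.2 : ℝ)|]

lemma epi {S : Set ℂ} {ν : ℂ} {κ a : ℝ} (h : Cone S ν κ) (ha : 0 < a) (z : ℤ × ℤ) :
    Epi {v | pt a (z + v) ∈ S} ν κ := fun u hu v hv => by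
  have := h _ hu (pt a v) (by
    rw [norm_pt ha]
    simp only [pt, ht] at hv ⊢
    nlinarith)
  rwa [← pt_add, add_assoc] at this

/-- A set which is locally stable under the cone is locally a stable set. -/
lemma exists_cone {D B : Set ℂ} {ν : ℂ} {κ : ℝ} (hκ : 0 < κ)
    (h : ∀ u ∈ D, u ∈ B → ∀ v : ℂ, κ * ‖v‖ ≤ v.re * ν.re + v.im * ν.im → u + v ∈ B → u + v ∈ D) :
    ∃ S, Cone S ν κ ∧ D ∩ B = S ∩ S ∩ B := by
  refine ⟨{w | ∃ u ∈ D, u ∈ B ∧ ∃ v : ℂ, κ * ‖v‖ ≤ v.re * ν.re + v.im * ν.im ∧ w = u + v}, ?_, ?_⟩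
  · rintro _ ⟨u, h1, h2, v, h3, rfl⟩ v' h4
    refine ⟨u, h1, h2, v + v', ?_, add_assoc _ _ _⟩
    simp only [Complex.add_re, Complex.add_im]
    nlinarith [norm_add_le v v']
  · rw [Set.inter_self]
    ext w
    refine ⟨fun hw => ⟨⟨w, hw.1, hw.2, 0, by simp, by simp⟩, hw.2⟩, ?_⟩
    rintro ⟨⟨u, h1, h2, v, h3, rfl⟩, h4⟩
    exact ⟨h u h1 h2 v h3 h4, h4⟩

lemma half {a b r : ℝ} (hr : 2 * r ≤ b - a) (t : ℝ) : ∃ (e : ℝ) (P : ℝ → Prop), e ^ 2 = 1 ∧
    (∀ x y, P x → 0 ≤ y * e → P (x + y)) ∧ ∀ x, |x - t| < r → (a < x ∧ x < b ↔ P x) := by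
  rcases le_total (2 * t) (a + b) with h | h
  · exact ⟨1, fun x => a < x, by norm_num, fun x y h1 h2 => by linarith, fun x hx =>
      ⟨fun h => h.1, fun h1 => ⟨h1, by linarith [(abs_lt.1 hx).2]⟩⟩⟩
  · exact ⟨-1, fun x => x < b, by norm_num, fun x y h1 h2 => by linarith, fun x hx =>
      ⟨fun h => h.2, fun h1 => ⟨by linarith [(abs_lt.1 hx).1], h1⟩⟩⟩

end B6a

open B6a

open P144 in
/-- The discretisation of a tame domain. -/
theorem shape_of_tame {α : ℝ} {D : Set ℂ} (h : Tame α D) : ∃ T > 0, ∀ κ > 0, ∃ ρ > 0,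
    ∀ a > 0, (∀ x, x ∈ disc D a ↔ (⟨a * x.1, a * x.2⟩ : ℂ) ∈ D) ∧
      (∀ x ∈ disc D a, a * zd x 0 ≤ T) ∧ ∀ r : ℕ, a * r ≤ ρ → ShapeZ (disc D a) α κ r := by
  obtain ⟨-, hb, h⟩ := h
  obtain ⟨T, T0, hT⟩ := hb.exists_pos_norm_le
  refine ⟨T, T0, fun κ hκ => ?_⟩
  obtain ⟨r₀, r0, h⟩ := h κ hκ
  refine ⟨r₀ / 3, by positivity, fun a ha => ?_⟩
  have h1 : ∀ x, pt a x ∈ D → a * zd x 0 ≤ T := fun x hx => (zd_le ha x).trans (hT _ hx)
  have hf : (sites D a).Finite := by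
    refine ((Set.finite_Icc (-(⌈T / a⌉₊ : ℤ)) ⌈T / a⌉₊).prod
      (Set.finite_Icc (-(⌈T / a⌉₊ : ℤ)) ⌈T / a⌉₊)).subset fun x hx => ?_
    have h2 : zd x 0 ≤ ⌈T / a⌉₊ := by
      have := ((le_div_iff₀' ha).2 (h1 x hx)).trans (Nat.le_ceil _)
      exact_mod_cast this
    simp only [zd, Prod.fst_zero, Prod.snd_zero, sub_zero, max_le_iff] at h2
    simp only [Set.mem_prod, Set.mem_Icc]
    omega
  have h2 : ∀ x, x ∈ disc D a ↔ pt a x ∈ D := fun x => by
    rw [disc, dif_pos hf, Set.Finite.mem_toFinset]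
    rfl
  refine ⟨h2, fun x hx => h1 x ((h2 x).1 hx), fun r hr z => ?_⟩
  obtain ⟨S₁, S₂, ν₁, ν₂, e1, e2, e3, c1, c2, e⟩ := h (pt a z)
  refine ⟨_, _, ν₁, ν₂, e1, e2, e3, epi c1 ha z, epi c2 ha z, fun v hv => ?_⟩
  have h3 : pt a (z + v) ∈ Metric.ball (pt a z) r₀ := by
    have h4 : (zd v 0 : ℝ) ≤ r := by exact_mod_cast hv
    rw [pt_add, mem_ball_iff_norm, add_sub_cancel_left]
    nlinarith [le_zd ha v]
  have h4 := Set.ext_iff.1 e (pt a (z + v))
  simp only [Set.mem_inter_iff, h3, and_true] at h4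
  rw [h2]
  exact h4

theorem tame_of_C1 {D : Set ℂ} (h : IsC1 D) : Tame 2 D := by
  obtain ⟨hb, F, hF, rfl, h0⟩ := h
  have cF := hF.continuous
  have cD : Continuous (fderiv ℝ F) := hF.continuous_fderiv one_ne_zero
  refine ⟨isOpen_lt continuous_const cF, hb, fun κ hκ => ?_⟩
  set K := closure {z | 0 < F z} ∩ {z | F z = 0} with hK
  have cK : IsCompact K := hb.isCompact_closure.inter_right (isClosed_eq cF continuous_const)
  set gr : ℂ → ℂ := fun z => fderiv ℝ F z 1 + fderiv ℝ F z Complex.I * Complex.I with hgr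
  have eg : ∀ z v, fderiv ℝ F z v = v.re * (gr z).re + v.im * (gr z).im := fun z v => by
    conv_lhs => rw [show v = v.re • (1 : ℂ) + v.im • Complex.I by simp, map_add, map_smul, map_smul]
    simp [hgr]
  obtain ⟨m, m0, hm⟩ : ∃ m > 0, ∀ z ∈ K, m ≤ ‖gr z‖ :=
    cK.exists_forall_le' (by fun_prop) fun z hz => norm_pos_iff.2 fun e =>
      h0 z hz.2 (ContinuousLinearMap.ext fun v => by simp [eg, e])
  obtain ⟨δ, δ0, hδ⟩ := Metric.uniformContinuousOn_iff.1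
    ((cK.cthickening (r := 1)).uniformContinuousOn_of_continuous cD.continuousOn) (κ * m)
    (by positivity)
  refine ⟨min δ 1 / 2, by positivity, fun z => ?_⟩
  suffices ∃ ν : ℂ, ‖ν‖ = 1 ∧ ∀ u ∈ {z | 0 < F z}, u ∈ Metric.ball z (min δ 1 / 2) → ∀ v : ℂ,
      κ * ‖v‖ ≤ v.re * ν.re + v.im * ν.im → u + v ∈ Metric.ball z (min δ 1 / 2) →
        u + v ∈ {z | 0 < F z} by
    obtain ⟨ν, h1, h2⟩ := this
    obtain ⟨S, h3, h4⟩ := exists_cone hκ h2
    exact ⟨S, S, ν, ν, h1, h1, by rw [← two_mul, norm_mul, h1]; simp, h3, h3, h4⟩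
  by_cases hp : ∃ p ∈ K, p ∈ Metric.ball z (min δ 1 / 2)
  · obtain ⟨p, hp, hz⟩ := hp
    have g0 := m0.trans_le (hm p hp)
    refine ⟨‖gr p‖⁻¹ • gr p, norm_smul_inv_norm (norm_pos_iff.1 g0), fun u hu h1 v h2 h3 => ?_⟩
    have h4 := (convex_ball z (min δ 1 / 2)).norm_image_sub_le_of_norm_fderiv_le'
      (φ := fderiv ℝ F p) (C := κ * m) (fun x _ => hF.differentiable one_ne_zero x)
      (fun x hx => by
        have h5 : dist x p < min δ 1 := by
          linarith [dist_triangle_right x p z, Metric.mem_ball.1 hx, Metric.mem_ball.1 hz]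
        rw [← dist_eq_norm]
        exact (hδ x (Metric.mem_cthickening_of_dist_le x p 1 K hp
          (h5.le.trans (min_le_right _ _))) p (Metric.self_subset_cthickening K hp)
          (h5.trans_le (min_le_left _ _))).le) h1 h3
    rw [add_sub_cancel_left, eg, Real.norm_eq_abs] at h4
    simp only [Complex.smul_re, Complex.smul_im, smul_eq_mul] at h2
    have h5 : κ * ‖v‖ * ‖gr p‖ ≤ v.re * (gr p).re + v.im * (gr p).im := by
      rw [← le_div_iff₀ g0]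
      exact h2.trans_eq (by ring)
    have h6 := mul_le_mul_of_nonneg_left (hm p hp) (mul_nonneg hκ.le (norm_nonneg v))
    have h7 : 0 < F u := hu
    change 0 < F (u + v)
    linarith [(abs_le.1 h4).1]
  · refine ⟨1, norm_one, fun u hu h1 v _ h3 => ?_⟩
    refine (convex_ball z _).isPreconnected.subset_left_of_subset_union
      (isOpen_lt continuous_const cF) isClosed_closure.isOpen_compl
      (Set.disjoint_left.2 fun w h1 h2 => h2 (subset_closure h1)) (fun w hw => ?_) ⟨u, h1, hu⟩ h3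
    by_cases h4 : w ∈ closure {z | 0 < F z}
    · exact Or.inl (lt_of_le_of_ne (closure_lt_subset_le continuous_const cF h4)
        fun e => hp ⟨w, ⟨h4, e.symm⟩, hw⟩)
    · exact Or.inr h4

theorem Tame.mono {α α' : ℝ} {D : Set ℂ} (h : Tame α D) (hα : α' ≤ α) : Tame α' D := by
  refine ⟨h.1, h.2.1, fun κ hκ => (h.2.2 κ hκ).imp fun r hr => ⟨hr.1, fun z => ?_⟩⟩
  obtain ⟨S₁, S₂, ν₁, ν₂, e1, e2, e3, e4⟩ := hr.2 z
  exact ⟨S₁, S₂, ν₁, ν₂, e1, e2, hα.trans e3, e4⟩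

theorem tame_ball (z : ℂ) (s : ℝ) : Tame 2 (Metric.ball z s) := by
  refine tame_of_C1 ⟨Metric.isBounded_ball, ?_⟩
  rcases le_or_gt s 0 with hs | hs
  · exact ⟨fun _ => -1, contDiff_const, by
      rw [Metric.ball_eq_empty.2 hs]; ext; norm_num, by simp⟩
  refine ⟨fun w => s ^ 2 - ‖w - z‖ ^ 2,
    contDiff_const.sub ((contDiff_id.sub contDiff_const).norm_sq ℝ), ?_, fun w hw e => ?_⟩
  · ext w
    rw [mem_ball_iff_norm, Set.mem_ofPred_eq, sub_pos, sq_lt_sq₀ (norm_nonneg _) hs.le]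
  · have h1 := (((hasFDerivAt_id w).sub_const z).norm_sq.const_sub (s ^ 2)).fderiv
    simp only [id] at h1
    have h2 := congrArg (fun L : ℂ →L[ℝ] ℝ => L (w - z)) (h1.symm.trans e)
    simp at h2
    simp only [Complex.sq_norm, Complex.normSq_apply, Complex.sub_re, Complex.sub_im] at hw
    nlinarith

theorem tame_rect (a b c d : ℝ) :
    Tame 1 {z : ℂ | a < z.re ∧ z.re < b ∧ c < z.im ∧ z.im < d} := by
  refine ⟨(isOpen_lt continuous_const Complex.continuous_re).inter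
    ((isOpen_lt Complex.continuous_re continuous_const).inter
      ((isOpen_lt continuous_const Complex.continuous_im).inter
        (isOpen_lt Complex.continuous_im continuous_const))),
    ((Metric.isBounded_Ioo a b).reProdIm (Metric.isBounded_Ioo c d)).subset
      fun z hz => ⟨⟨hz.1, hz.2.1⟩, hz.2.2⟩, fun κ hκ => ?_⟩
  by_cases h : a < b ∧ c < d
  · have h1 := sub_pos.2 h.1
    have h2 := sub_pos.2 h.2
    refine ⟨min (b - a) (d - c) / 2, by positivity, fun z => ?_⟩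
    obtain ⟨e, P, e1, e2, e3⟩ := half (a := a) (b := b) (r := min (b - a) (d - c) / 2)
      (by linarith [min_le_left (b - a) (d - c)]) z.re
    obtain ⟨e', P', e1', e2', e3'⟩ := half (a := c) (b := d) (r := min (b - a) (d - c) / 2)
      (by linarith [min_le_right (b - a) (d - c)]) z.im
    refine ⟨{w | P w.re}, {w | P' w.im}, ⟨e, 0⟩, ⟨0, e'⟩, ?_, ?_, ?_, fun w hw v hv => ?_,
      fun w hw v hv => ?_, ?_⟩
    · simp [Complex.norm_eq_sqrt_sq_add_sq, e1]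
    · simp [Complex.norm_eq_sqrt_sq_add_sq, e1']
    · simp [Complex.norm_eq_sqrt_sq_add_sq, e1, e1']
    · exact e2 _ _ hw (by simpa using (mul_nonneg hκ.le (norm_nonneg v)).trans hv)
    · exact e2' _ _ hw (by simpa using (mul_nonneg hκ.le (norm_nonneg v)).trans hv)
    · ext w
      refine and_congr_left fun hw => ?_
      rw [mem_ball_iff_norm] at hw
      rw [Set.mem_ofPred_eq, ← and_assoc]
      exact and_congr (e3 _ ((Complex.abs_re_le_norm (w - z)).trans_lt hw))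
        (e3' _ ((Complex.abs_im_le_norm (w - z)).trans_lt hw))
  · refine ⟨1, one_pos, fun z => ⟨∅, ∅, 1, 1, norm_one, norm_one, by norm_num,
      fun _ h => h.elim, fun _ h => h.elim, ?_⟩⟩
    ext w
    simp only [Set.mem_inter_iff, Set.mem_ofPred_eq, Set.mem_empty_iff_false, false_and, iff_false]
    exact fun hw => h ⟨hw.1.1.trans hw.1.2.1, hw.1.2.2.1.trans hw.1.2.2.2⟩

end Vale.Agent.P144Z
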