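import Vale.Agent.P144D.Tame
import Mathlib.Analysis.LocallyConvex.Separation

/-!
Bounded convex domains are tame.
-/

namespace Vale.Agent.P144Z

open Filter Topology Metric

namespace B6C

/-- the scalar product -/
def ip (a b : ℂ) : ℝ := a.re * b.re + a.im * b.im

/-- the determinant -/
def dt (a b : ℂ) : ℝ := a.re * b.im - a.im * b.re

/-- inner unit normals of supporting lines through `p` -/
def Nor (D : Set ℂ) (p n : ℂ) : Prop := ‖n‖ = 1 ∧ ∀ u ∈ D, 0 ≤ ip (u - p) n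

theorem ip_le (a b : ℂ) : ip a b ≤ ‖a‖ * ‖b‖ := by
  have h := Complex.re_le_norm (a * (starRingEnd ℂ) b)
  rw [norm_mul, Complex.norm_conj] at h
  simpa [ip] using h

theorem sq1 {n : ℂ} (h : ‖n‖ = 1) : n.re ^ 2 + n.im ^ 2 = 1 := by
  have := Complex.sq_norm n
  rw [h, Complex.normSq_apply] at this
  linarith

variable {D : Set ℂ}

theorem Nor.ge {p n u : ℂ} (h : Nor D p n) {s : ℝ} (hs : 0 < s) (hu : ball u (2 * s) ⊆ D) :
    s ≤ ip (u - p) n := by
  have h1 := h.2 (u - s * n) (hu (by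
    rw [mem_ball, dist_eq_norm, sub_sub_cancel_left, norm_neg, norm_mul, h.1, Complex.norm_real,
      Real.norm_of_nonneg hs.le]
    linarith))
  have h2 := sq1 h.1
  simp only [ip, Complex.sub_re, Complex.sub_im, Complex.mul_re, Complex.mul_im,
    Complex.ofReal_re, Complex.ofReal_im] at h1 ⊢
  linear_combination h1 - s * h2

theorem Nor.pos (ho : IsOpen D) {p n u : ℂ} (h : Nor D p n) (hu : u ∈ D) : 0 < ip (u - p) n := by
  obtain ⟨s, hs, h1⟩ := isOpen_iff.1 ho u hu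
  exact (half_pos hs).trans_le (h.ge (half_pos hs) (by rwa [mul_div_cancel₀ _ two_ne_zero]))

theorem Nor.cl {p n z : ℂ} (h : Nor D p n) (hz : z ∈ closure D) : 0 ≤ ip (z - p) n :=
  closure_minimal (t := {u | 0 ≤ ip (u - p) n}) h.2
    (isClosed_le continuous_const (by unfold ip; fun_prop)) hz

theorem exists_nor (ho : IsOpen D) (hc : Convex ℝ D) {u w : ℂ} (hu : u ∈ D) (hw : w ∉ D) :
    ∃ n, Nor D w n := by
  obtain ⟨f, hf⟩ := geometric_hahn_banach_open_point hc ho hw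
  have h1 : ∀ v ∈ D, 0 < ip (v - w) ⟨-f 1, -f Complex.I⟩ := fun v hv => by
    have e : v - w = (v - w).re • (1 : ℂ) + (v - w).im • Complex.I := by
      apply Complex.ext <;> simp
    have h2 : f (v - w) = (v - w).re * f 1 + (v - w).im * f Complex.I := by
      conv_lhs => rw [e]
      rw [map_add, map_smul, map_smul, smul_eq_mul, smul_eq_mul]
    have h3 := hf v hv
    rw [map_sub] at h2
    simp only [ip]
    linarith
  generalize (⟨-f 1, -f Complex.I⟩ : ℂ) = m at h1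
  have hm : 0 < ‖m‖ := norm_pos_iff.2 fun h => by simpa [h, ip] using h1 u hu
  refine ⟨(‖m‖⁻¹ : ℝ) • m, by rw [norm_smul, norm_inv, norm_norm, inv_mul_cancel₀ hm.ne'],
    fun v hv => ?_⟩
  have h2 := mul_pos (inv_pos.2 hm) (h1 v hv)
  simp only [ip, Complex.smul_re, Complex.smul_im, smul_eq_mul] at h2 ⊢
  linarith

theorem eq_of_dt {a b c : ℂ} (ha : ‖a‖ = 1) (hb : ‖b‖ = 1) (h : dt a b = 0) (h1 : 0 < ip c a)
    (h2 : 0 < ip c b) : b = a := by
  have e1 := sq1 ha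
  have e2 := sq1 hb
  have h3 : ip c b = ip a b * ip c a := by
    simp only [ip, dt] at *
    linear_combination (c.im * a.re - c.re * a.im) * h - (c.re * b.re + c.im * b.im) * e1
  have h4 : 0 < ip a b := by
    by_contra h5
    nlinarith [mul_nonneg (neg_nonneg.2 (not_lt.1 h5)) h1.le]
  have h5 : (ip a b - 1) * (ip a b + 1) = 0 := by
    simp only [ip, dt] at *
    linear_combination (b.re ^ 2 + b.im ^ 2) * e1 + e2 - (a.re * b.im - a.im * b.re) * h
  have h6 : ip a b = 1 := sub_eq_zero.1 ((mul_eq_zero.1 h5).resolve_right (by linarith))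
  simp only [ip, dt] at h h6
  apply Complex.ext
  · linear_combination a.re * h6 - a.im * h - b.re * e1
  · linear_combination a.im * h6 + a.re * h - b.im * e1

theorem exists_ext (ho : IsOpen D) (hc : Convex ℝ D) {u z : ℂ} (hu : u ∈ D) (hz : z ∉ D) :
    ∃ ν₁ ν₂, Nor D z ν₁ ∧ Nor D z ν₂ ∧ ∀ m, Nor D z m → 0 ≤ dt ν₁ m ∧ 0 ≤ dt m ν₂ := by
  have hK : IsCompact {m | Nor D z m} := by
    refine (isCompact_sphere (0 : ℂ) 1).of_isClosed_subset ?_ fun m hm => by simpa using hm.1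
    simp only [Nor, Set.ofPred_and, Set.ofPred_forall]
    exact (isClosed_eq continuous_norm continuous_const).inter (isClosed_iInter fun v =>
      isClosed_iInter fun _ => isClosed_le continuous_const (by unfold ip; fun_prop))
  have hf : ContinuousOn (fun m => dt (u - z) m / ip (u - z) m) {m | Nor D z m} :=
    ContinuousOn.div (by unfold dt; fun_prop) (by unfold ip; fun_prop)
      fun m hm => (hm.pos ho hu).ne'
  obtain ⟨ν₁, h1, H1⟩ := hK.exists_isMinOn (exists_nor ho hc hu hz) hf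
  obtain ⟨ν₂, h2, H2⟩ := hK.exists_isMaxOn (exists_nor ho hc hu hz) hf
  have key : ∀ a b, Nor D z a → Nor D z b →
      dt (u - z) a / ip (u - z) a ≤ dt (u - z) b / ip (u - z) b → 0 ≤ dt a b := by
    intro a b ha hb h
    have p1 := ha.pos ho hu
    rw [div_le_div_iff₀ p1 (hb.pos ho hu)] at h
    generalize u - z = c at *
    have h3 : 0 < c.re ^ 2 + c.im ^ 2 := by
      by_contra h4
      have h5 : c.re = 0 := by nlinarith [sq_nonneg c.re, sq_nonneg c.im]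
      have h6 : c.im = 0 := by nlinarith [sq_nonneg c.re, sq_nonneg c.im]
      simp [ip, h5, h6] at p1
    refine le_of_mul_le_mul_left (a := c.re ^ 2 + c.im ^ 2) ?_ h3
    simp only [ip, dt] at h ⊢
    linarith
  exact ⟨ν₁, ν₂, h1, h2, fun m hm => ⟨key _ _ h1 hm (H1 hm), key _ _ hm h2 (H2 hm)⟩⟩

/-- the intersection of the supporting half-planes with normal close to `ν` -/
def hp (D : Set ℂ) (ν : ℂ) (κ : ℝ) : Set ℂ :=
  {w | ∀ p n, Nor D p n → ‖n - ν‖ ≤ κ → 0 < ip (w - p) n}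

theorem cone_hp (ν : ℂ) (κ : ℝ) : Cone (hp D ν κ) ν κ := by
  intro w hw v hv p n h1 h2
  have h3 := hw p n h1 h2
  have h4 := ip_le v (ν - n)
  have h5 := mul_le_mul_of_nonneg_left h2 (norm_nonneg v)
  rw [norm_sub_rev] at h4
  simp only [ip, Complex.sub_re, Complex.sub_im, Complex.add_re, Complex.add_im] at h3 h4 ⊢
  linarith

theorem loc (ho : IsOpen D) (hc : Convex ℝ D) {u z : ℂ} (hu : u ∈ D) (hz : z ∉ D)
    (hz' : z ∈ closure D) {κ : ℝ} (hκ : 0 < κ) : ∃ ρ > 0, ∃ ν₁ ν₂, Nor D z ν₁ ∧ Nor D z ν₂ ∧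
      D ∩ ball z ρ = hp D ν₁ κ ∩ hp D ν₂ κ ∩ ball z ρ := by
  obtain ⟨ν₁, ν₂, h1, h2, H⟩ := exists_ext ho hc hu hz
  have hev : ∀ᶠ p in 𝓝 z, ∀ n ∈ sphere (0 : ℂ) 1, Nor D p n →
      ‖n - ν₁‖ < κ ∨ ‖n - ν₂‖ < κ ∨ (0 < dt ν₁ n ∧ 0 < dt n ν₂) := by
    refine (isCompact_sphere _ _).eventually_forall_of_forall_eventually fun n hn => ?_
    by_cases h : Nor D z n
    · have hO : IsOpen {q : ℂ × ℂ |
          ‖q.2 - ν₁‖ < κ ∨ ‖q.2 - ν₂‖ < κ ∨ (0 < dt ν₁ q.2 ∧ 0 < dt q.2 ν₂)} := by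
        simp only [Set.ofPred_or, Set.ofPred_and, dt]
        refine IsOpen.union ?_ (IsOpen.union ?_ (IsOpen.inter ?_ ?_)) <;>
          exact isOpen_lt (by fun_prop) (by fun_prop)
      refine (hO.eventually_mem (x := (z, n)) ?_).mono fun q hq _ => hq
      rcases (H n h).1.eq_or_lt with e1 | e1
      · exact Or.inl (by simpa [eq_of_dt h1.1 h.1 e1.symm (h1.pos ho hu) (h.pos ho hu)] using hκ)
      rcases (H n h).2.eq_or_lt with e2 | e2
      · exact Or.inr (Or.inl (by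
          simpa [eq_of_dt h.1 h2.1 e2.symm (h.pos ho hu) (h2.pos ho hu)] using hκ))
      exact Or.inr (Or.inr ⟨e1, e2⟩)
    · obtain ⟨v, hv, h3⟩ : ∃ v ∈ D, ip (v - z) n < 0 := by
        by_contra h4
        push Not at h4
        exact h ⟨by simpa using hn, h4⟩
      have hO : IsOpen {q : ℂ × ℂ | ip (v - q.1) q.2 < 0} :=
        isOpen_lt (by unfold ip; fun_prop) continuous_const
      exact (hO.eventually_mem (x := (z, n)) h3).mono fun q hq h5 =>
        absurd (h5.2 v hv) (not_le.2 hq)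
  obtain ⟨ρ, hρ, h3⟩ := Metric.eventually_nhds_iff_ball.1 hev
  refine ⟨ρ, hρ, ν₁, ν₂, h1, h2, Set.Subset.antisymm (fun w hw =>
    ⟨⟨fun p n h _ => h.pos ho hw.1, fun p n h _ => h.pos ho hw.1⟩, hw.2⟩)
    fun w hw => ⟨by_contra fun hw' => ?_, hw.2⟩⟩
  obtain ⟨n, hn⟩ := exists_nor ho hc hu hw'
  rcases h3 w hw.2 n (by simpa using hn.1) hn with h | h | h
  · simpa [ip] using hw.1.1 w n hn h.le
  · simpa [ip] using hw.1.2 w n hn h.le
  · have a1 := mul_pos h.2 (hw.1.1 z ν₁ h1 (by simpa using hκ.le))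
    have a2 := mul_pos h.1 (hw.1.2 z ν₂ h2 (by simpa using hκ.le))
    have a3 := mul_nonneg (H ν₂ h2).1 (hn.cl hz')
    simp only [ip, dt, Complex.sub_re, Complex.sub_im] at a1 a2 a3
    linarith

end B6C

open B6C in
theorem tame_of_convex {D : Set ℂ} (ho : IsOpen D) (hb : Bornology.IsBounded D)
    (hc : Convex ℝ D) : ∃ α > 0, Tame α D := by
  have hE : ∀ κ, Cone ∅ 1 κ := fun _ _ h => h.elim
  have h2 : ‖(1 : ℂ) + 1‖ = 2 := by norm_num
  rcases D.eq_empty_or_nonempty with rfl | ⟨u, hu⟩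
  · exact ⟨2, two_pos, ho, hb, fun κ _ => ⟨1, one_pos, fun z =>
      ⟨∅, ∅, 1, 1, norm_one, norm_one, h2.ge, hE κ, hE κ, by simp⟩⟩⟩
  obtain ⟨s, hs, hs'⟩ := isOpen_iff.1 ho u hu
  obtain ⟨R, hR, hR'⟩ := hb.closure.subset_ball_lt 0 u
  refine ⟨min 2 (s / R), lt_min two_pos (div_pos hs hR), ho, hb, fun κ hκ => ?_⟩
  have key : ∀ z : closure D, ∃ ρ > 0, ∃ (S₁ S₂ : Set ℂ) (ν₁ ν₂ : ℂ), ‖ν₁‖ = 1 ∧ ‖ν₂‖ = 1 ∧
      min 2 (s / R) ≤ ‖ν₁ + ν₂‖ ∧ Cone S₁ ν₁ κ ∧ Cone S₂ ν₂ κ ∧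
      D ∩ ball z ρ = S₁ ∩ S₂ ∩ ball z ρ := by
    rintro ⟨z, hz⟩
    by_cases h : z ∈ D
    · obtain ⟨ρ, hρ, h1⟩ := isOpen_iff.1 ho z h
      exact ⟨ρ, hρ, Set.univ, Set.univ, 1, 1, norm_one, norm_one, (min_le_left _ _).trans h2.ge,
        fun _ _ _ _ => trivial, fun _ _ _ _ => trivial, by simpa using h1⟩
    obtain ⟨ρ, hρ, ν₁, ν₂, h3, h4, h5⟩ := loc ho hc hu h hz hκ
    refine ⟨ρ, hρ, _, _, ν₁, ν₂, h3.1, h4.1, (min_le_right _ _).trans ?_, cone_hp _ _,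
      cone_hp _ _, h5⟩
    have b1 := h3.ge (half_pos hs) (u := u) (by rwa [mul_div_cancel₀ _ two_ne_zero])
    have b2 := h4.ge (half_pos hs) (u := u) (by rwa [mul_div_cancel₀ _ two_ne_zero])
    have b3 := ip_le (u - z) (ν₁ + ν₂)
    have b4 : ‖u - z‖ ≤ R := by
      rw [norm_sub_rev, ← dist_eq_norm]
      exact (hR' hz).le
    have b5 := mul_le_mul_of_nonneg_right b4 (norm_nonneg (ν₁ + ν₂))
    rw [div_le_iff₀ hR]
    simp only [ip, Complex.add_re, Complex.add_im] at b1 b2 b3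
    linarith
  choose ρ hρ H using key
  obtain ⟨δ, hδ, hL⟩ := lebesgue_number_lemma_of_metric (c := fun z : closure D => ball z.1 (ρ z))
    hb.isCompact_closure (fun _ => isOpen_ball)
    fun z hz => Set.mem_iUnion.2 ⟨⟨z, hz⟩, mem_ball_self (hρ _)⟩
  refine ⟨δ / 2, half_pos hδ, fun z => ?_⟩
  rcases (D ∩ ball z (δ / 2)).eq_empty_or_nonempty with h | ⟨x, hx⟩
  · exact ⟨∅, ∅, 1, 1, norm_one, norm_one, (min_le_left _ _).trans h2.ge, hE κ, hE κ,
      by simpa using h⟩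
  obtain ⟨i, hi⟩ := hL x (subset_closure hx.1)
  obtain ⟨S₁, S₂, ν₁, ν₂, e1, e2, e3, e4, e5, e6⟩ := H i
  have h3 : ball z (δ / 2) ⊆ ball i.1 (ρ i) := (ball_subset_ball' (by
    have := mem_ball'.1 hx.2
    linarith)).trans hi
  refine ⟨S₁, S₂, ν₁, ν₂, e1, e2, e3, e4, e5, ?_⟩
  rw [← Set.inter_eq_right.2 h3, ← Set.inter_assoc, e6, Set.inter_assoc]

end Vale.Agent.P144Z
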